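import Vale.Agent.P038.H233.K2

/-!
P038: Seymour's second neighbourhood conjecture, closed neighbourhood form.
-/

namespace Vale.Agent.P038.H233

open Finset

set_option linter.unusedSectionVars false

variable {V : Type*} [Fintype V] [DecidableEq V]

/-- closed out-neighbourhood of a set -/
def up (N : V → Finset V) (X : Finset V) : Finset V := X.biUnion N

/-- oriented, with closed neighbourhoods -/
structure OG (N : V → Finset V) : Prop where
  self : ∀ x, x ∈ N x
  asym : ∀ x y, y ∈ N x → x ∈ N y → x = y

/-- no second neighbourhood vertex: `|N₂(v)| < |N₁(v)|` for every `v` -/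
def CE (N : V → Finset V) : Prop := ∀ v, (up N (N v)).card + 1 < 2 * (N v).card

theorem mem_up {N : V → Finset V} {X : Finset V} {z : V} :
    z ∈ up N X ↔ ∃ x ∈ X, z ∈ N x := by
  simp [up]

theorem up_mono {N : V → Finset V} {X Y : Finset V} (h : X ⊆ Y) : up N X ⊆ up N Y :=
  Finset.biUnion_subset_biUnion_of_subset_left _ h

theorem sub_up {N : V → Finset V} (h : OG N) (X : Finset V) : X ⊆ up N X := by
  intro x hx
  exact mem_up.mpr ⟨x, hx, h.self x⟩

/-- the deletion lemma: every minimiser is everything -/
theorem min_full {N : V → Finset V} (h : OG N) (hce : CE N)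
    (hmin : ∀ N' : V → Finset V, OG N' → CE N' → ∑ v, (N v).card ≤ ∑ v, (N' v).card)
    (X : Finset V) (T : Finset V) (hT : T ⊆ up N X \ X)
    (hTm : ∀ W, W ⊆ up N X \ X →
      ((up N T \ X).card : ℤ) - 2 * T.card ≤ ((up N W \ X).card : ℤ) - 2 * W.card) :
    T = up N X \ X := by
  classical
  let N' : V → Finset V := fun v => if v ∈ X then N v ∩ (X ∪ T) else N v
  have hsub : ∀ v, N' v ⊆ N v := by
    intro v
    by_cases hv : v ∈ X
    · simp only [N', hv, if_true]; exact Finset.inter_subset_left
    · simp only [N', hv, if_false]; exact Finset.Subset.refl _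
  have hOG : OG N' := by
    refine ⟨?_, ?_⟩
    · intro x
      by_cases hv : x ∈ X
      · simp only [N', hv, if_true]
        exact mem_inter.mpr ⟨h.self x, mem_union_left _ hv⟩
      · simp only [N', hv, if_false]; exact h.self x
    · intro x y hy hx
      exact h.asym x y (hsub x hy) (hsub y hx)
  have hCE : CE N' := by
    intro v
    by_cases hv : v ∈ X
    · have hN'v : N' v = N v ∩ (X ∪ T) := by simp only [N', hv, if_true]
      set D := N v \ (X ∪ T) with hD
      have hDL : D ⊆ up N X \ X := by
        intro z hz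
        rw [hD, mem_sdiff, mem_union, not_or] at hz
        rw [mem_sdiff]
        exact ⟨mem_up.mpr ⟨v, hv, hz.1⟩, hz.2.1⟩
      have hTD : Disjoint T D := by
        rw [Finset.disjoint_left]
        intro a ha hb
        rw [hD, mem_sdiff, mem_union, not_or] at hb
        exact hb.2.2 ha
      have hm := hTm (T ∪ D) (Finset.union_subset hT hDL)
      have hcTD : (T ∪ D).card = T.card + D.card := Finset.card_union_of_disjoint hTD
      have hsplit : (up N (T ∪ D) \ X).card
          ≤ (up N T \ X).card + (up N D \ (X ∪ up N T)).card := by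
        refine le_trans (Finset.card_le_card ?_) (Finset.card_union_le _ _)
        intro z hz
        rw [mem_sdiff] at hz
        obtain ⟨c, hc, hzc⟩ := mem_up.mp hz.1
        rw [mem_union, mem_sdiff, mem_sdiff]
        by_cases hzT : z ∈ up N T
        · left; exact ⟨hzT, hz.2⟩
        · right
          rw [mem_union] at hc
          rcases hc with hc | hc
          · exact absurd (mem_up.mpr ⟨c, hc, hzc⟩) hzT
          · refine ⟨mem_up.mpr ⟨c, hc, hzc⟩, ?_⟩
            rw [mem_union, not_or]
            exact ⟨hz.2, hzT⟩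
      have hball : (up N' (N' v)).card + (up N D \ (X ∪ up N T)).card
          ≤ (up N (N v)).card := by
        rw [← Finset.card_union_of_disjoint]
        · apply Finset.card_le_card
          apply Finset.union_subset
          · intro z hz
            obtain ⟨c, hc, hzc⟩ := mem_up.mp hz
            exact mem_up.mpr ⟨c, hsub v hc, hsub c hzc⟩
          · intro z hz
            rw [mem_sdiff] at hz
            obtain ⟨c, hc, hzc⟩ := mem_up.mp hz.1
            rw [hD, mem_sdiff] at hc
            exact mem_up.mpr ⟨c, hc.1, hzc⟩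
        · rw [Finset.disjoint_left]
          intro z hz hz2
          rw [mem_sdiff, mem_union, not_or] at hz2
          obtain ⟨c, hc, hzc⟩ := mem_up.mp hz
          rw [hN'v, mem_inter, mem_union] at hc
          by_cases hcX : c ∈ X
          · have : N' c = N c ∩ (X ∪ T) := by simp only [N', hcX, if_true]
            rw [this, mem_inter, mem_union] at hzc
            rcases hzc.2 with h1 | h1
            · exact hz2.2.1 h1
            · exact hz2.2.2 (sub_up h T h1)
          · rcases hc.2 with h1 | h1
            · exact hcX h1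
            · have : N' c = N c := by simp only [N', hcX, if_false]
              rw [this] at hzc
              exact hz2.2.2 (mem_up.mpr ⟨c, h1, hzc⟩)
      have hcN : (N' v).card + D.card = (N v).card := by
        rw [hN'v, hD]
        exact Finset.card_inter_add_card_sdiff _ _
      have hv0 := hce v
      zify at hm hcTD hsplit hball hcN hv0 ⊢
      rw [hcTD] at hm
      linarith
    · have hN'v : N' v = N v := by simp only [N', hv, if_false]
      rw [hN'v]
      refine lt_of_le_of_lt ?_ (hce v)
      apply Nat.add_le_add_right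
      apply Finset.card_le_card
      intro z hz
      obtain ⟨c, hc, hzc⟩ := mem_up.mp hz
      exact mem_up.mpr ⟨c, hc, hsub c hzc⟩
  have hle := hmin N' hOG hCE
  have heq : ∀ v, N' v = N v := by
    intro v
    apply Finset.eq_of_subset_of_card_le (hsub v)
    by_contra hlt
    push Not at hlt
    have : ∑ v, (N' v).card < ∑ v, (N v).card :=
      Finset.sum_lt_sum (fun v _ => Finset.card_le_card (hsub v)) ⟨v, mem_univ _, hlt⟩
    omega
  apply Finset.Subset.antisymm hT
  intro z hz
  rw [mem_sdiff] at hz
  obtain ⟨v, hv, hzv⟩ := mem_up.mp hz.1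
  have h1 := heq v
  simp only [N', hv, if_true] at h1
  rw [← h1, mem_inter, mem_union] at hzv
  rcases hzv.2 with h2 | h2
  · exact absurd h2 hz.2
  · exact h2

/-- (G): `|N₂(X)| < |N₁(X)|` for every set `X` which is not closed -/
theorem gg_strict {N : V → Finset V} (h : OG N) (hce : CE N)
    (hmin : ∀ N' : V → Finset V, OG N' → CE N' → ∑ v, (N v).card ≤ ∑ v, (N' v).card)
    (X : Finset V) (hX : up N X ≠ X) :
    (up N (up N X)).card + X.card < 2 * (up N X).card := by
  classical
  set L := up N X \ X with hL
  have hLne : L.Nonempty := by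
    rw [Finset.nonempty_iff_ne_empty]
    intro h0
    rw [hL, Finset.sdiff_eq_empty_iff_subset] at h0
    exact hX (Finset.Subset.antisymm h0 (sub_up h X))
  obtain ⟨T, hT, hTm⟩ := Finset.exists_min_image L.powerset
    (fun W => ((up N W \ X).card : ℤ) - 2 * W.card) ⟨∅, by simp⟩
  have hTL : T = L := min_full h hce hmin X T (Finset.mem_powerset.mp hT)
    (fun W hW => hTm W (Finset.mem_powerset.mpr hW))
  have h0 := hTm ∅ (by simp)
  have hval0 : ((up N (∅ : Finset V) \ X).card : ℤ) - 2 * ((∅ : Finset V).card : ℤ) = 0 := by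
    simp [up]
  have hlt : ((up N L \ X).card : ℤ) - 2 * L.card < 0 := by
    rcases lt_or_ge (((up N L \ X).card : ℤ) - 2 * L.card) 0 with h1 | h1
    · exact h1
    · exfalso
      have : (∅ : Finset V) = L := by
        apply min_full h hce hmin X ∅ (Finset.empty_subset _)
        intro W hW
        rw [hval0]
        have := hTm W (Finset.mem_powerset.mpr hW)
        simp only [hTL] at this
        linarith
      rw [← this] at hLne
      exact Finset.not_nonempty_empty hLne
  have hcard1 : L.card + X.card = (up N X).card :=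
    Finset.card_sdiff_add_card_eq_card (sub_up h X)
  have hcard2 : (up N (up N X)).card ≤ (up N L \ X).card + X.card := by
    refine le_trans (Finset.card_le_card ?_) (Finset.card_union_le _ _)
    intro z hz
    rw [mem_union, mem_sdiff]
    by_cases hzX : z ∈ X
    · right; exact hzX
    · left
      obtain ⟨c, hc, hzc⟩ := mem_up.mp hz
      refine ⟨?_, hzX⟩
      by_cases hcX : c ∈ X
      · have hzL : z ∈ L := by
          rw [hL, mem_sdiff]
          exact ⟨mem_up.mpr ⟨c, hcX, hzc⟩, hzX⟩
        exact sub_up h L hzL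
      · exact mem_up.mpr ⟨c, mem_sdiff.mpr ⟨hc, hcX⟩, hzc⟩
  zify at hcard1 hcard2 ⊢
  linarith

theorem gg_weak {N : V → Finset V} (h : OG N) (hce : CE N)
    (hmin : ∀ N' : V → Finset V, OG N' → CE N' → ∑ v, (N v).card ≤ ∑ v, (N' v).card)
    (X : Finset V) :
    (up N (up N X)).card + X.card ≤ 2 * (up N X).card := by
  by_cases hX : up N X = X
  · rw [hX, hX]; omega
  · exact (gg_strict h hce hmin X hX).le

/-- an IN-system has a strictly cheaper OUT-system -/
theorem in_to_out [Nonempty V] {N : V → Finset V} (h : OG N) (hce : CE N)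
    (hmin : ∀ N' : V → Finset V, OG N' → CE N' → ∑ v, (N v).card ≤ ∑ v, (N' v).card)
    {S C : V → Finset V} (hi : Inn N S C) :
    ∃ B H Q, Out N B H Q ∧ costOut N B H Q < costIn N S C := by
  classical
  let X : V → Finset V := fun a => univ.filter (fun x => a ∈ S x)
  let Y : V → Finset V := fun b => insert b (univ.filter (fun z => N z ∩ C b = ∅))
  have hYb : ∀ b, b ∈ Y b := fun b => Finset.mem_insert_self _ _
  -- elements of `up (Y b)` other than `b` are not in `C b`
  have hYC : ∀ b c, c ∈ up N (Y b) → c ∈ C b → c = b := by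
    intro b c hc hcC
    obtain ⟨z, hz, hcz⟩ := mem_up.mp hc
    rcases Finset.mem_insert.mp hz with rfl | hz
    · exact hi.cy z c hcC hcz
    · have h0 := (mem_filter.mp hz).2
      have : c ∈ N z ∩ C b := mem_inter.mpr ⟨hcz, hcC⟩
      rw [h0] at this
      exact absurd this (Finset.notMem_empty c)
  have hinC : ∀ z y, y ∈ N z → z ∈ C y := fun z y hy => hi.sc z y z hy (hi.ys z)
  let B : V → Finset V := rr N S
  let H : V → Finset V := fun b => insert b (univ \ up N (Y b))
  let Q : V → Finset V := fun b => insert b (univ \ up N (up N (Y b)))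
  refine ⟨B, H, Q, ⟨?_, ?_, ?_, ?_, ?_⟩, ?_⟩
  · intro y x hyx
    exact mem_filter.mpr ⟨mem_univ _, x, hyx, hi.ys x⟩
  · intro y x hx
    obtain ⟨y0, hy0, hx0⟩ := (mem_filter.mp hx).2
    have hxC : x ∈ C y := hi.sc y0 y x hy0 hx0
    by_cases hxy : x = y
    · subst hxy; exact Finset.mem_insert_self _ _
    · apply Finset.mem_insert_of_mem
      rw [mem_sdiff]
      exact ⟨mem_univ _, fun hup => hxy (hYC y x hup hxC)⟩
  · intro y c hc hcN
    rcases Finset.mem_insert.mp hc with hc | hc
    · exact hc
    · exact absurd (mem_up.mpr ⟨y, hYb y, hcN⟩) (mem_sdiff.mp hc).2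
  · intro y; exact Finset.mem_insert_self _ _
  · intro y z x hx hxz
    by_cases hzy : z = y
    · subst hzy; exact Finset.mem_insert_self _ _
    · apply Finset.mem_insert_of_mem
      rw [mem_sdiff]
      refine ⟨mem_univ _, fun hup => ?_⟩
      rcases Finset.mem_insert.mp hx with rfl | hx
      · exact hzy (hYC x z hup (hinC z x hxz))
      · exact (mem_sdiff.mp hx).2 (mem_up.mpr ⟨z, hup, hxz⟩)
  · -- costs
    have hBX : ∀ y x, x ∈ B y ↔ y ∈ up N (X x) := by
      intro y x
      rw [mem_up]
      constructor
      · intro hx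
        obtain ⟨y0, hy0, hx0⟩ := (mem_filter.mp hx).2
        exact ⟨y0, mem_filter.mpr ⟨mem_univ _, hx0⟩, hy0⟩
      · rintro ⟨y0, hy0, hy⟩
        exact mem_filter.mpr ⟨mem_univ _, y0, hy, (mem_filter.mp hy0).2⟩
    have hBBX : ∀ y x, x ∈ rr N B y ↔ y ∈ up N (up N (X x)) := by
      intro y x
      rw [mem_up]
      constructor
      · intro hx
        obtain ⟨y0, hy0, hx0⟩ := (mem_filter.mp hx).2
        exact ⟨y0, (hBX y0 x).mp hx0, hy0⟩
      · rintro ⟨y0, hy0, hy⟩
        exact mem_filter.mpr ⟨mem_univ _, y0, hy, (hBX y0 x).mpr hy0⟩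
    have hswap : ∀ (R : V → Finset V) (U : V → Finset V),
        (∀ y x, x ∈ R y ↔ y ∈ U x) → ∑ y, (R y).card = ∑ a, (U a).card := by
      intro R U hRU
      have e1 : ∀ y, (R y).card = ∑ a, if a ∈ R y then 1 else 0 := by
        intro y; simp
      have e2 : ∀ a, (U a).card = ∑ y, if a ∈ R y then 1 else 0 := by
        intro a
        have : ∀ y, (if a ∈ R y then 1 else 0) = if y ∈ U a then 1 else 0 := by
          intro y
          by_cases hy : a ∈ R y
          · rw [if_pos hy, if_pos ((hRU y a).mp hy)]
          · rw [if_neg hy, if_neg (fun h' => hy ((hRU y a).mpr h'))]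
        simp only [this]
        simp
      simp only [e1, e2]
      exact Finset.sum_comm
    have hrow : ∑ y, (S y).card = ∑ a, (X a).card :=
      hswap S X (fun y x => ⟨fun hx => mem_filter.mpr ⟨mem_univ _, hx⟩,
        fun hx => (mem_filter.mp hx).2⟩)
    have hB : ∑ y, (B y).card = ∑ a, (up N (X a)).card := hswap B _ hBX
    have hBB : ∑ y, (rr N B y).card = ∑ a, (up N (up N (X a))).card := hswap _ _ hBBX
    have hYcost : ∀ y, ((up N (Y y)).card : ℤ) - (Y y).card
        ≤ ((dn N (C y)).card : ℤ) - (C y).card := by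
      intro y
      have c1 : (up N (Y y) \ Y y).card + (Y y).card = (up N (Y y)).card :=
        Finset.card_sdiff_add_card_eq_card (sub_up h _)
      have hCd : C y ⊆ dn N (C y) := by
        intro z hz
        exact mem_filter.mpr ⟨mem_univ _, z, mem_inter.mpr ⟨h.self z, hz⟩⟩
      have c2 : (dn N (C y) \ C y).card + (C y).card = (dn N (C y)).card :=
        Finset.card_sdiff_add_card_eq_card hCd
      have c3 : (up N (Y y) \ Y y).card ≤ (dn N (C y) \ C y).card := by
        apply Finset.card_le_card
        intro c hc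
        rw [mem_sdiff] at hc ⊢
        have hcy : c ≠ y := fun he => hc.2 (he ▸ hYb y)
        refine ⟨?_, fun hcC => hcy (hYC y c hc.1 hcC)⟩
        refine mem_filter.mpr ⟨mem_univ _, ?_⟩
        rw [Finset.nonempty_iff_ne_empty]
        intro h0
        exact hc.2 (Finset.mem_insert_of_mem (mem_filter.mpr ⟨mem_univ _, h0⟩))
      zify at c1 c2 c3
      linarith
    have hHQ : ∀ y, ((H y).card : ℤ) - (Q y).card
        = ((up N (up N (Y y))).card : ℤ) - (up N (Y y)).card := by
      intro y
      have hy1 : y ∈ up N (Y y) := sub_up h _ (hYb y)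
      have hy2 : y ∈ up N (up N (Y y)) := sub_up h _ hy1
      have a1 : (H y).card = (univ \ up N (Y y)).card + 1 := by
        apply Finset.card_insert_of_notMem
        rw [mem_sdiff]; exact fun h' => h'.2 hy1
      have a2 : (Q y).card = (univ \ up N (up N (Y y))).card + 1 := by
        apply Finset.card_insert_of_notMem
        rw [mem_sdiff]; exact fun h' => h'.2 hy2
      have a3 : (univ \ up N (Y y)).card + (up N (Y y)).card = (univ : Finset V).card :=
        Finset.card_sdiff_add_card_eq_card (Finset.subset_univ _)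
      have a4 : (univ \ up N (up N (Y y))).card + (up N (up N (Y y))).card
          = (univ : Finset V).card :=
        Finset.card_sdiff_add_card_eq_card (Finset.subset_univ _)
      zify at a1 a2 a3 a4
      linarith
    -- a strict row
    have hstrict : ∃ a, up N (X a) ≠ X a := by
      by_contra hcon
      push Not at hcon
      let K : V → Finset V := fun a =>
        univ.filter (fun z => ∀ W : Finset V, up N W ⊆ W → a ∈ W → z ∈ W)
      have hKcl : ∀ a, up N (K a) ⊆ K a := by
        intro a z hz
        obtain ⟨c, hc, hzc⟩ := mem_up.mp hz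
        refine mem_filter.mpr ⟨mem_univ _, fun W hW haW => ?_⟩
        exact hW (mem_up.mpr ⟨c, (mem_filter.mp hc).2 W hW haW, hzc⟩)
      have hKa : ∀ a, a ∈ K a := fun a =>
        mem_filter.mpr ⟨mem_univ _, fun W _ haW => haW⟩
      have hKm : ∀ a (W : Finset V), up N W ⊆ W → a ∈ W → K a ⊆ W := by
        intro a W hW haW z hz
        exact (mem_filter.mp hz).2 W hW haW
      obtain ⟨a, _, ha⟩ := Finset.exists_min_image (univ : Finset V)
        (fun a => (K a).card) Finset.univ_nonempty
      -- an out-neighbour of `a`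
      have hNa : 1 < (N a).card := by
        have h1 := hce a
        have h2 : (N a).card ≤ (up N (N a)).card := Finset.card_le_card (sub_up h _)
        omega
      obtain ⟨b, hb, hba⟩ := Finset.exists_mem_ne hNa a
      have hbK : b ∈ K a := hKcl a (mem_up.mpr ⟨a, hKa a, hb⟩)
      have hsub : K b ⊆ K a := hKm b (K a) (hKcl a) hbK
      have heq : K b = K a := Finset.eq_of_subset_of_card_le hsub (ha b (mem_univ _))
      have haK : a ∈ K b := heq ▸ hKa a
      have hXb : up N (X b) ⊆ X b := by rw [hcon b]
      have hbX : b ∈ X b := mem_filter.mpr ⟨mem_univ _, hi.ys b⟩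
      have haX : a ∈ X b := hKm b (X b) hXb hbX haK
      have hbS : b ∈ S a := (mem_filter.mp haX).2
      have hbC : b ∈ C a := hi.sc a a b (h.self a) hbS
      exact hba (hi.cy a b hbC hb)
    obtain ⟨a0, ha0⟩ := hstrict
    have hG1 : ∑ a, ((up N (up N (X a))).card + (X a).card)
        < ∑ a, 2 * (up N (X a)).card :=
      Finset.sum_lt_sum (fun a _ => gg_weak h hce hmin (X a))
        ⟨a0, mem_univ _, gg_strict h hce hmin (X a0) ha0⟩
    have hG2 : ∑ a, ((up N (up N (Y a))).card + (Y a).card)
        ≤ ∑ a, 2 * (up N (Y a)).card :=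
      Finset.sum_le_sum (fun a _ => gg_weak h hce hmin (Y a))
    have hY2 := Finset.sum_le_sum (s := (univ : Finset V)) (fun y _ => hYcost y)
    have hHQ2 : ∑ y, (((H y).card : ℤ) - (Q y).card)
        = ∑ y, (((up N (up N (Y y))).card : ℤ) - (up N (Y y)).card) :=
      Finset.sum_congr rfl (fun y _ => hHQ y)
    have cO : costOut N B H Q = ∑ y, ((rr N B y).card : ℤ) - ∑ y, ((B y).card : ℤ)
        + ∑ y, (((H y).card : ℤ) - (Q y).card) := by
      unfold costOut
      rw [← Finset.sum_sub_distrib, ← Finset.sum_add_distrib]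
      exact Finset.sum_congr rfl (fun y _ => by ring)
    have cI : costIn N S C = ∑ y, ((rr N S y).card : ℤ) - ∑ y, ((S y).card : ℤ)
        + ∑ y, (((dn N (C y)).card : ℤ) - (C y).card) := by
      unfold costIn
      rw [← Finset.sum_sub_distrib, ← Finset.sum_add_distrib]
      exact Finset.sum_congr rfl (fun y _ => by ring)
    have hBS : ∑ y, ((rr N S y).card : ℤ) = ∑ y, ((B y).card : ℤ) := rfl
    rw [cO, cI, hBS, hHQ2]
    zify at hrow hB hBB hG1 hG2
    rw [hrow, hB, hBB]
    simp only [Finset.sum_add_distrib, Finset.sum_sub_distrib, ← Finset.mul_sum] at *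
    linarith

/-- **Seymour's second neighbourhood conjecture**, closed neighbourhood form. -/
theorem snc_closed [Nonempty V] {N : V → Finset V} (h : OG N) :
    ∃ v, 2 * (N v).card ≤ (up N (N v)).card + 1 := by
  classical
  by_contra hcon
  push Not at hcon
  have hce0 : CE N := hcon
  obtain ⟨N, hN, hNmin⟩ := Finset.exists_min_image
    ((univ : Finset (V → Finset V)).filter (fun N' => OG N' ∧ CE N'))
    (fun N' => ∑ v, (N' v).card) ⟨N, mem_filter.mpr ⟨mem_univ _, h, hce0⟩⟩
  obtain ⟨hog, hce⟩ := (mem_filter.mp hN).2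
  have hmin : ∀ N' : V → Finset V, OG N' → CE N' → ∑ v, (N v).card ≤ ∑ v, (N' v).card :=
    fun N' h1 h2 => hNmin N' (mem_filter.mpr ⟨mem_univ _, h1, h2⟩)
  -- a cost-minimal OUT-system
  let B0 : V → Finset V := fun y => univ.filter (fun x => y ∈ N x)
  have hout0 : Out N B0 B0 (fun y => {y}) := by
    refine ⟨?_, ?_, ?_, ?_, ?_⟩
    · intro y x hx; exact mem_filter.mpr ⟨mem_univ _, hx⟩
    · intro y; exact Finset.Subset.refl _
    · intro y c hc hcN
      exact hog.asym c y (mem_filter.mp hc).2 hcN
    · intro y; exact Finset.mem_singleton_self _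
    · intro y z x hx hxz
      rw [Finset.mem_singleton] at hx
      subst hx
      exact mem_filter.mpr ⟨mem_univ _, hxz⟩
  obtain ⟨p, hp, hpmin⟩ := Finset.exists_min_image
    ((univ : Finset ((V → Finset V) × (V → Finset V) × (V → Finset V))).filter
      (fun p => Out N p.1 p.2.1 p.2.2))
    (fun p => costOut N p.1 p.2.1 p.2.2)
    ⟨(B0, B0, fun y => {y}), mem_filter.mpr ⟨mem_univ _, hout0⟩⟩
  have hpo := (mem_filter.mp hp).2
  obtain ⟨S, C, hInn, hle⟩ := thmK hog.self hpo (fun B' H' Q' h' =>
    hpmin (B', H', Q') (mem_filter.mpr ⟨mem_univ _, h'⟩))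
  obtain ⟨B, H, Q, ho, hlt⟩ := in_to_out hog hce hmin hInn
  have := hpmin (B, H, Q) (mem_filter.mpr ⟨mem_univ _, ho⟩)
  simp only at this
  linarith

end Vale.Agent.P038.H233
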