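import Vale.Agent.P038.Defs
import Vale.Agent.P038.H233.K3

/-!
P038: Seymour's second neighbourhood conjecture for `OGraph`.
-/

namespace Vale.Agent.P038.H233

open Finset

universe u

/-- Every nonempty finite oriented graph has a vertex `v` with `|N₁(v)| ≤ |N₂(v)|`. -/
theorem seymour {V : Type u} [Fintype V] [Nonempty V] (D : OGraph V) :
    ∃ v, (N1 D v).card ≤ (N2 D v).card := by
  classical
  let N : V → Finset V := fun v => insert v (N1 D v)
  have hmem : ∀ v x, x ∈ N v ↔ x = v ∨ D.arc v x := by
    intro v x
    rw [show N v = insert v (N1 D v) from rfl, Finset.mem_insert, mem_N1]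
  have hOG : OG N := by
    refine ⟨fun x => (hmem x x).mpr (Or.inl rfl), ?_⟩
    intro x y hy hx
    rcases (hmem x y).mp hy with h1 | h1
    · exact h1.symm
    · rcases (hmem y x).mp hx with h2 | h2
      · exact h2
      · exact absurd h2 (D.asymm x y h1)
  obtain ⟨v, hv⟩ := snc_closed hOG
  refine ⟨v, ?_⟩
  have hvN : v ∉ N1 D v := fun h => D.loopless v (mem_N1.mp h)
  have c1 : (N v).card = (N1 D v).card + 1 := Finset.card_insert_of_notMem hvN
  have c2 : (up N (N v)).card ≤ (N v).card + (N2 D v).card := by
    refine le_trans (Finset.card_le_card ?_) (Finset.card_union_le _ _)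
    intro x hx
    rw [Finset.mem_union]
    by_cases hxN : x ∈ N v
    · exact Or.inl hxN
    · right
      have hx1 : x ≠ v ∧ ¬ D.arc v x := by
        rw [hmem, not_or] at hxN; exact hxN
      obtain ⟨c, hc, hxc⟩ := mem_up.mp hx
      rw [mem_N2]
      refine ⟨hx1.1, hx1.2, c, ?_, ?_⟩
      · rcases (hmem v c).mp hc with h1 | h1
        · subst h1; exact absurd hxc hxN
        · exact h1
      · rcases (hmem c x).mp hxc with h1 | h1
        · subst h1; exact absurd hc hxN
        · exact h1
  omega

end Vale.Agent.P038.H233
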