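import Mathlib

/-!
P038, Theorem K, first part: largest maximisers of `M * g - k * |Z|` for a
finite source-target system, monotonicity and the two discrete integrals.
-/

namespace Vale.Agent.P038.H233

open Finset

set_option linter.unusedSectionVars false

variable {V : Type*} [Fintype V] [DecidableEq V]

/-- number of sources `x` in `X` which have a target in `Q` and all of whose
targets in `Q` lie in `Z` (the targets of `x` are the elements of `N x`) -/
def gg (N : V → Finset V) (X Q Z : Finset V) : ℕ :=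
  (X.filter (fun x => (N x ∩ Q).Nonempty ∧ N x ∩ Q ⊆ Z)).card

/-- the objective `M g(Z) - k |Z|` -/
def ob (N : V → Finset V) (M k : ℕ) (X Q Z : Finset V) : ℤ :=
  (M : ℤ) * (gg N X Q Z : ℤ) - (k : ℤ) * (Z.card : ℤ)

/-- `Z` is a maximiser of the objective among the subsets of `Q` -/
def IsMx (N : V → Finset V) (M k : ℕ) (X Q Z : Finset V) : Prop :=
  Z ⊆ Q ∧ ∀ W, W ⊆ Q → ob N M k X Q W ≤ ob N M k X Q Z

/-- `Z` is a maximiser of largest cardinality -/
def IsLMx (N : V → Finset V) (M k : ℕ) (X Q Z : Finset V) : Prop :=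
  IsMx N M k X Q Z ∧
    ∀ W, W ⊆ Q → ob N M k X Q W = ob N M k X Q Z → W.card ≤ Z.card

theorem exists_lmx (N : V → Finset V) (M k : ℕ) (X Q : Finset V) :
    ∃ Z, IsLMx N M k X Q Z := by
  classical
  obtain ⟨Z, hZ, hmax⟩ := Finset.exists_max_image Q.powerset
    (fun Z => ((Fintype.card V : ℤ) + 1) * ob N M k X Q Z + (Z.card : ℤ))
    ⟨∅, by simp⟩
  have hcard : ∀ W : Finset V, (W.card : ℤ) ≤ Fintype.card V := by
    intro W
    exact_mod_cast Finset.card_le_univ W
  have h0 : (0 : ℤ) ≤ Fintype.card V := by positivity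
  refine ⟨Z, ⟨Finset.mem_powerset.mp hZ, ?_⟩, ?_⟩
  · intro W hW
    have h1 := hmax W (Finset.mem_powerset.mpr hW)
    by_contra hlt
    push Not at hlt
    have h2 : ob N M k X Q Z + 1 ≤ ob N M k X Q W := hlt
    have h3 := hcard Z
    have h4 : (0 : ℤ) ≤ (W.card : ℤ) := by positivity
    nlinarith
  · intro W hW heq
    have h1 := hmax W (Finset.mem_powerset.mpr hW)
    simp only [heq] at h1
    have : (W.card : ℤ) ≤ (Z.card : ℤ) := by linarith
    exact_mod_cast this

theorem gg_empty (N : V → Finset V) (X Q : Finset V) : gg N X Q ∅ = 0 := by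
  unfold gg
  rw [Finset.card_eq_zero, Finset.filter_eq_empty_iff]
  rintro x _ ⟨h1, h2⟩
  obtain ⟨a, ha⟩ := h1
  exact absurd (h2 ha) (Finset.notMem_empty a)

theorem gg_le (N : V → Finset V) (X Q Z : Finset V) : gg N X Q Z ≤ X.card :=
  Finset.card_filter_le _ _

theorem gg_full (N : V → Finset V) (X Q : Finset V)
    (h : ∀ x ∈ X, (N x ∩ Q).Nonempty) : gg N X Q Q = X.card := by
  unfold gg
  rw [Finset.filter_true_of_mem]
  intro x hx
  exact ⟨h x hx, Finset.inter_subset_right⟩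

/-- monotonicity: fewer targets and more sources give larger maximisers -/
theorem mono_mx (N : V → Finset V) (M k : ℕ) {X₁ Q₁ Z₁ X₂ Q₂ Z₂ : Finset V}
    (hQ : Q₁ ⊆ Q₂) (hX : ∀ x ∈ X₂, (N x ∩ Q₁).Nonempty → x ∈ X₁)
    (h1 : IsLMx N M k X₁ Q₁ Z₁) (h2 : IsMx N M k X₂ Q₂ Z₂) :
    Z₂ ∩ Q₁ ⊆ Z₁ := by
  classical
  set Y := (Z₂ ∩ Q₁) \ Z₁ with hY
  have hYZ : Y ⊆ Z₂ := fun a ha => by
    simp only [hY, mem_sdiff, mem_inter] at ha; exact ha.1.1
  have hYQ : Y ⊆ Q₁ := fun a ha => by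
    simp only [hY, mem_sdiff, mem_inter] at ha; exact ha.1.2
  have hYd : Disjoint Z₁ Y := by
    rw [Finset.disjoint_left]
    intro a ha hb
    simp only [hY, mem_sdiff, mem_inter] at hb
    exact hb.2 ha
  set E := X₂.filter (fun x => (N x ∩ Q₂).Nonempty ∧ N x ∩ Q₂ ⊆ Z₂ ∧ (N x ∩ Y).Nonempty)
    with hE
  have e1 : gg N X₂ Q₂ Z₂ ≤ gg N X₂ Q₂ (Z₂ \ Y) + E.card := by
    unfold gg
    refine le_trans (Finset.card_le_card ?_) (Finset.card_union_le _ _)
    intro x hx
    simp only [mem_filter] at hx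
    simp only [hE, mem_union, mem_filter]
    by_cases hn : (N x ∩ Y).Nonempty
    · right; exact ⟨hx.1, hx.2.1, hx.2.2, hn⟩
    · left
      refine ⟨hx.1, hx.2.1, ?_⟩
      intro a ha
      rw [mem_sdiff]
      refine ⟨hx.2.2 ha, fun hay => hn ⟨a, ?_⟩⟩
      rw [mem_inter] at ha ⊢
      exact ⟨ha.1, hay⟩
  have e2 : gg N X₁ Q₁ Z₁ + E.card ≤ gg N X₁ Q₁ (Z₁ ∪ Y) := by
    unfold gg
    rw [← Finset.card_union_of_disjoint]
    · apply Finset.card_le_card
      intro x hx
      simp only [hE, mem_union, mem_filter] at hx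
      simp only [mem_filter]
      rcases hx with hx | hx
      · exact ⟨hx.1, hx.2.1, fun a ha => mem_union_left _ (hx.2.2 ha)⟩
      · obtain ⟨hxX, _, hsub, hne⟩ := hx
        have hne1 : (N x ∩ Q₁).Nonempty := by
          obtain ⟨a, ha⟩ := hne
          rw [mem_inter] at ha
          exact ⟨a, mem_inter.mpr ⟨ha.1, hYQ ha.2⟩⟩
        refine ⟨hX x hxX hne1, hne1, ?_⟩
        intro a ha
        rw [mem_inter] at ha
        have haZ : a ∈ Z₂ := hsub (mem_inter.mpr ⟨ha.1, hQ ha.2⟩)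
        by_cases haz : a ∈ Z₁
        · exact mem_union_left _ haz
        · apply mem_union_right
          simp only [hY, mem_sdiff, mem_inter]
          exact ⟨⟨haZ, ha.2⟩, haz⟩
    · rw [Finset.disjoint_left]
      intro x hx hx2
      simp only [hE, mem_filter] at hx hx2
      obtain ⟨a, ha⟩ := hx2.2.2.2
      rw [mem_inter] at ha
      have haz : a ∈ Z₁ := hx.2.2 (mem_inter.mpr ⟨ha.1, hYQ ha.2⟩)
      exact (Finset.disjoint_left.mp hYd) haz ha.2
  have hcardY : (Z₂ \ Y).card + Y.card = Z₂.card := Finset.card_sdiff_add_card_eq_card hYZ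
  have m2 := h2.2 (Z₂ \ Y) (Finset.sdiff_subset.trans h2.1)
  have hU : Z₁ ∪ Y ⊆ Q₁ := Finset.union_subset h1.1.1 hYQ
  have m1 := h1.1.2 (Z₁ ∪ Y) hU
  have hcU : (Z₁ ∪ Y).card = Z₁.card + Y.card := Finset.card_union_of_disjoint hYd
  have key : ob N M k X₁ Q₁ Z₁ ≤ ob N M k X₁ Q₁ (Z₁ ∪ Y) := by
    unfold ob at m2 ⊢
    rw [hcU]
    have a1 : (gg N X₂ Q₂ Z₂ : ℤ) ≤ gg N X₂ Q₂ (Z₂ \ Y) + E.card := by exact_mod_cast e1
    have a2 : (gg N X₁ Q₁ Z₁ : ℤ) + E.card ≤ gg N X₁ Q₁ (Z₁ ∪ Y) := by exact_mod_cast e2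
    have a3 : ((Z₂ \ Y).card : ℤ) + Y.card = Z₂.card := by exact_mod_cast hcardY
    have hM : (0 : ℤ) ≤ M := by positivity
    have b1 := mul_le_mul_of_nonneg_left a1 hM
    have b2 := mul_le_mul_of_nonneg_left a2 hM
    have a4 : ((Z₂ \ Y).card : ℤ) = Z₂.card - Y.card := by linarith
    rw [a4] at m2
    push_cast
    nlinarith
  have heq : ob N M k X₁ Q₁ (Z₁ ∪ Y) = ob N M k X₁ Q₁ Z₁ := le_antisymm m1 key
  have hc := h1.2 (Z₁ ∪ Y) hU heq
  have hY0 : Y.card = 0 := by omega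
  have hYe : Y = ∅ := Finset.card_eq_zero.mp hY0
  intro a ha
  by_contra hn
  have : a ∈ Y := by
    simp only [hY, mem_sdiff]
    exact ⟨ha, hn⟩
  rw [hYe] at this
  exact absurd this (Finset.notMem_empty a)

/-- upper discrete integral -/
theorem sum_upper (N : V → Finset V) (M : ℕ) (X Q : Finset V) (Z : ℕ → Finset V)
    (hZ : ∀ k, IsMx N M k X Q (Z k)) :
    ∑ k ∈ range M, ((Z (k + 1)).card : ℤ) ≤ (M : ℤ) * X.card := by
  have step : ∀ j, ∑ k ∈ range j, ((Z (k + 1)).card : ℤ)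
      ≤ ob N M 0 X Q (Z 0) - ob N M j X Q (Z j) := by
    intro j
    induction j with
    | zero => simp
    | succ j ih =>
      rw [Finset.sum_range_succ]
      have h := (hZ j).2 (Z (j + 1)) (hZ (j + 1)).1
      have h2 : ob N M j X Q (Z (j + 1))
          = ob N M (j + 1) X Q (Z (j + 1)) + ((Z (j + 1)).card : ℤ) := by
        unfold ob; push_cast; ring
      linarith
  have h1 := step M
  have h2 : ob N M 0 X Q (Z 0) ≤ (M : ℤ) * X.card := by
    unfold ob
    have : (gg N X Q (Z 0) : ℤ) ≤ X.card := by exact_mod_cast gg_le N X Q (Z 0)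
    have hM : (0 : ℤ) ≤ M := by positivity
    have := mul_le_mul_of_nonneg_left this hM
    simpa using this
  have h3 : 0 ≤ ob N M M X Q (Z M) := by
    have h := (hZ M).2 ∅ (Finset.empty_subset _)
    unfold ob at h
    rw [gg_empty] at h
    simpa [ob] using h
  linarith

/-- lower discrete integral -/
theorem sum_lower (N : V → Finset V) (M : ℕ) (X Q : Finset V) (Z : ℕ → Finset V)
    (hZ : ∀ k, IsMx N M k X Q (Z k)) (hX : ∀ x ∈ X, (N x ∩ Q).Nonempty)
    (hlast : Z (M + 1) = ∅) :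
    (M : ℤ) * X.card - Fintype.card V ≤ ∑ k ∈ range M, ((Z (k + 1)).card : ℤ) := by
  have step : ∀ j, ob N M 0 X Q (Z 0) - ob N M j X Q (Z j)
      ≤ ∑ k ∈ range j, ((Z k).card : ℤ) := by
    intro j
    induction j with
    | zero => simp
    | succ j ih =>
      rw [Finset.sum_range_succ]
      have h := (hZ (j + 1)).2 (Z j) (hZ j).1
      have h2 : ob N M (j + 1) X Q (Z j)
          = ob N M j X Q (Z j) - ((Z j).card : ℤ) := by
        unfold ob; push_cast; ring
      linarith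
  have h1 := step (M + 1)
  rw [Finset.sum_range_succ'] at h1
  have h2 : (M : ℤ) * X.card ≤ ob N M 0 X Q (Z 0) := by
    have h := (hZ 0).2 Q (Finset.Subset.refl _)
    have h' : ob N M 0 X Q Q = (M : ℤ) * X.card := by
      unfold ob; rw [gg_full N X Q hX]; simp
    linarith
  have h3 : ob N M (M + 1) X Q (Z (M + 1)) = 0 := by
    rw [hlast]; unfold ob; rw [gg_empty]; simp
  have h4 : ((Z 0).card : ℤ) ≤ Fintype.card V := by
    exact_mod_cast Finset.card_le_univ (Z 0)
  linarith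

end Vale.Agent.P038.H233
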