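import Vale.Agent.P038.H233.K1

/-!
P038, Theorem K: a cost-minimal OUT-system gives an IN-system of at most the
same cost.  Everything is written in columns.  `N x` is the closed
out-neighbourhood of `x`.
-/

namespace Vale.Agent.P038.H233

open Finset

set_option linter.unusedSectionVars false

variable {V : Type*} [Fintype V] [DecidableEq V]

/-- closed in-neighbourhood of a set -/
def dn (N : V → Finset V) (X : Finset V) : Finset V :=
  univ.filter (fun z => (N z ∩ X).Nonempty)

/-- row-forward image of a relation given by its columns -/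
def rr (N : V → Finset V) (R : V → Finset V) (y' : V) : Finset V :=
  univ.filter (fun x => ∃ y, y' ∈ N y ∧ x ∈ R y)

/-- OUT-system -/
structure Out (N : V → Finset V) (B H Q : V → Finset V) : Prop where
  ab : ∀ y x, y ∈ N x → x ∈ B y
  bh : ∀ y, B y ⊆ H y
  hy : ∀ y c, c ∈ H y → c ∈ N y → c = y
  yq : ∀ y, y ∈ Q y
  qh : ∀ y z x, x ∈ Q y → x ∈ N z → z ∈ H y

/-- IN-system -/
structure Inn (N : V → Finset V) (S C : V → Finset V) : Prop where
  ys : ∀ y, y ∈ S y
  sc : ∀ y y' x, y' ∈ N y → x ∈ S y → x ∈ C y'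
  cy : ∀ y c, c ∈ C y → c ∈ N y → c = y

def costOut (N : V → Finset V) (B H Q : V → Finset V) : ℤ :=
  ∑ y, (((rr N B y).card : ℤ) - (B y).card + (H y).card - (Q y).card)

def costIn (N : V → Finset V) (S C : V → Finset V) : ℤ :=
  ∑ y, (((rr N S y).card : ℤ) - (S y).card + (dn N (C y)).card - (C y).card)

/-- Hall condition at a cost-minimal OUT-system -/
theorem hall_of_min {N : V → Finset V} {B H Q : V → Finset V}
    (ho : Out N B H Q)
    (hmin : ∀ B' H' Q', Out N B' H' Q' → costOut N B H Q ≤ costOut N B' H' Q')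
    (y₀ : V) (Z : Finset V) (hZ : Z ⊆ Q y₀) :
    gg N (H y₀ \ B y₀) (Q y₀) Z ≤ Z.card := by
  classical
  -- sources have no target at `y₀`
  have hno : ∀ x ∈ H y₀ \ B y₀, y₀ ∉ N x := by
    intro x hx hy
    rw [mem_sdiff] at hx
    exact hx.2 (ho.ab y₀ x hy)
  set Z1 := Z.erase y₀ with hZ1
  have hgg : gg N (H y₀ \ B y₀) (Q y₀) Z = gg N (H y₀ \ B y₀) (Q y₀) Z1 := by
    unfold gg
    congr 1
    apply Finset.filter_congr
    intro x hx
    constructor
    · rintro ⟨h1, h2⟩
      refine ⟨h1, fun a ha => ?_⟩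
      rw [hZ1, mem_erase]
      refine ⟨?_, h2 ha⟩
      rintro rfl
      exact hno x hx (mem_inter.mp ha).1
    · rintro ⟨h1, h2⟩
      exact ⟨h1, fun a ha => mem_of_mem_erase (h2 ha)⟩
  have hZ1Q : Z1 ⊆ Q y₀ := (Finset.erase_subset _ _).trans hZ
  have hc1 : Z1.card ≤ Z.card := Finset.card_erase_le
  rw [hgg]
  refine le_trans ?_ hc1
  by_contra hlt
  push Not at hlt
  set F := (H y₀ \ B y₀).filter (fun x => (N x ∩ Q y₀).Nonempty ∧ N x ∩ Q y₀ ⊆ Z1) with hF
  have hFc : F.card = gg N (H y₀ \ B y₀) (Q y₀) Z1 := rfl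
  have hFH : F ⊆ H y₀ := fun x hx => by
    rw [hF, mem_filter, mem_sdiff] at hx; exact hx.1.1
  let H' : V → Finset V := Function.update H y₀ (H y₀ \ F)
  let Q' : V → Finset V := Function.update Q y₀ (Q y₀ \ Z1)
  have hH'ne : ∀ y, y ≠ y₀ → H' y = H y := fun y hy => Function.update_of_ne hy _ _
  have hQ'ne : ∀ y, y ≠ y₀ → Q' y = Q y := fun y hy => Function.update_of_ne hy _ _
  have hH'0 : H' y₀ = H y₀ \ F := Function.update_self _ _ _
  have hQ'0 : Q' y₀ = Q y₀ \ Z1 := Function.update_self _ _ _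
  have ho' : Out N B H' Q' := by
    refine ⟨ho.ab, ?_, ?_, ?_, ?_⟩
    · intro y
      by_cases hy : y = y₀
      · subst hy
        rw [hH'0]
        intro x hx
        rw [mem_sdiff]
        refine ⟨ho.bh y hx, fun hxF => ?_⟩
        rw [hF, mem_filter, mem_sdiff] at hxF
        exact hxF.1.2 hx
      · rw [hH'ne y hy]; exact ho.bh y
    · intro y c hc
      by_cases hy : y = y₀
      · subst hy
        rw [hH'0, mem_sdiff] at hc
        exact ho.hy y c hc.1
      · rw [hH'ne y hy] at hc; exact ho.hy y c hc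
    · intro y
      by_cases hy : y = y₀
      · subst hy
        rw [hQ'0, mem_sdiff]
        exact ⟨ho.yq y, fun h => (Finset.notMem_erase y Z) h⟩
      · rw [hQ'ne y hy]; exact ho.yq y
    · intro y z x hx hz
      by_cases hy : y = y₀
      · subst hy
        rw [hQ'0, mem_sdiff] at hx
        rw [hH'0, mem_sdiff]
        refine ⟨ho.qh y z x hx.1 hz, fun hzF => ?_⟩
        rw [hF, mem_filter] at hzF
        exact hx.2 (hzF.2.2 (mem_inter.mpr ⟨hz, hx.1⟩))
      · rw [hQ'ne y hy] at hx
        rw [hH'ne y hy]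
        exact ho.qh y z x hx hz
  have hle := hmin B H' Q' ho'
  have hlt2 : costOut N B H' Q' < costOut N B H Q := by
    unfold costOut
    apply Finset.sum_lt_sum
    · intro y _
      by_cases hy : y = y₀
      · subst hy
        rw [hH'0, hQ'0]
        have c1 : (H y \ F).card + F.card = (H y).card :=
          Finset.card_sdiff_add_card_eq_card hFH
        have c2 : (Q y \ Z1).card + Z1.card = (Q y).card :=
          Finset.card_sdiff_add_card_eq_card hZ1Q
        rw [← hFc] at hlt
        zify at c1 c2 hlt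
        linarith
      · rw [hH'ne y hy, hQ'ne y hy]
    · refine ⟨y₀, mem_univ _, ?_⟩
      rw [hH'0, hQ'0]
      have c1 : (H y₀ \ F).card + F.card = (H y₀).card :=
        Finset.card_sdiff_add_card_eq_card hFH
      have c2 : (Q y₀ \ Z1).card + Z1.card = (Q y₀).card :=
        Finset.card_sdiff_add_card_eq_card hZ1Q
      rw [← hFc] at hlt
      zify at c1 c2 hlt
      linarith
  linarith

/-- **Theorem K.** -/
theorem thmK {N : V → Finset V} {B H Q : V → Finset V}
    (hself : ∀ x, x ∈ N x)
    (ho : Out N B H Q)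
    (hmin : ∀ B' H' Q', Out N B' H' Q' → costOut N B H Q ≤ costOut N B' H' Q') :
    ∃ S C, Inn N S C ∧ costIn N S C ≤ costOut N B H Q := by
  classical
  set n := Fintype.card V with hn
  set M := n * n + 1 with hM
  -- gaps
  let G : V → Finset V := fun y => H y \ B y
  let T : V → Finset V := rr N Q
  let P : V → Finset V := rr N B
  let X : V → Finset V := fun y => dn N (T y) \ P y
  have hQT : ∀ y y', y' ∈ N y → Q y ⊆ T y' := by
    intro y y' h x hx
    exact mem_filter.mpr ⟨mem_univ _, y, h, hx⟩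
  have hBP : ∀ y y', y' ∈ N y → B y ⊆ P y' := by
    intro y y' h x hx
    exact mem_filter.mpr ⟨mem_univ _, y, h, hx⟩
  have hXn : ∀ y, ∀ x ∈ X y, (N x ∩ T y).Nonempty := by
    intro y x hx
    have := (mem_sdiff.mp hx).1
    exact (mem_filter.mp this).2
  choose Z hZ using fun (k : ℕ) (y : V) => exists_lmx N M k (G y) (Q y)
  choose Z' hZ' using fun (k : ℕ) (y : V) => exists_lmx N M k (X y) (T y)
  -- monotonicity
  have hmono : ∀ k y y', y' ∈ N y → Z' k y' ∩ Q y ⊆ Z k y := by
    intro k y y' h
    refine mono_mx N M k (hQT y y' h) ?_ (hZ k y) (hZ' k y').1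
    intro x hx hne
    obtain ⟨a, ha⟩ := hne
    rw [mem_inter] at ha
    rw [mem_sdiff]
    refine ⟨ho.qh y x a ha.2 ha.1, fun hb => ?_⟩
    exact (mem_sdiff.mp hx).2 (hBP y y' h hb)
  -- Hall
  have hlast : ∀ y, Z (M + 1) y = ∅ := by
    intro y
    have hh := hall_of_min ho hmin y (Z (M + 1) y) (hZ (M + 1) y).1.1
    have h0 := (hZ (M + 1) y).1.2 ∅ (Finset.empty_subset _)
    unfold ob at h0
    rw [gg_empty] at h0
    have hh' : (gg N (G y) (Q y) (Z (M + 1) y) : ℤ) ≤ (Z (M + 1) y).card := by exact_mod_cast hh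
    have hM0 : (0 : ℤ) ≤ (M : ℤ) := by positivity
    have hmul := mul_le_mul_of_nonneg_left hh' hM0
    have : ((Z (M + 1) y).card : ℤ) ≤ 0 := by
      push_cast at h0
      simp only [Finset.card_empty, Nat.cast_zero, mul_zero, sub_zero] at h0
      nlinarith
    have h3 : (Z (M + 1) y).card = 0 := by
      have : (Z (M + 1) y).card ≤ 0 := by exact_mod_cast this
      omega
    exact Finset.card_eq_zero.mp h3
  have hlast' : ∀ y, Z' (M + 1) y = ∅ := by
    intro y'
    rw [Finset.eq_empty_iff_forall_notMem]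
    intro x hx
    have hxT : x ∈ T y' := (hZ' (M + 1) y').1.1 hx
    obtain ⟨y, hy, hxQ⟩ := (mem_filter.mp hxT).2
    have := hmono (M + 1) y y' hy (mem_inter.mpr ⟨hx, hxQ⟩)
    rw [hlast y] at this
    exact absurd this (Finset.notMem_empty x)
  -- the diagonal is never in `Z k y` for `1 ≤ k`
  have hdiag : ∀ k y, y ∉ Z (k + 1) y := by
    intro k y hy
    have hsub : (Z (k + 1) y).erase y ⊆ Q y :=
      (Finset.erase_subset _ _).trans (hZ (k + 1) y).1.1
    have h0 := (hZ (k + 1) y).1.2 _ hsub
    have hgg : gg N (G y) (Q y) ((Z (k + 1) y).erase y) = gg N (G y) (Q y) (Z (k + 1) y) := by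
      unfold gg
      congr 1
      apply Finset.filter_congr
      intro x hx
      have hno : y ∉ N x := fun hyx => (mem_sdiff.mp hx).2 (ho.ab y x hyx)
      constructor
      · rintro ⟨h1, h2⟩
        exact ⟨h1, fun a ha => mem_of_mem_erase (h2 ha)⟩
      · rintro ⟨h1, h2⟩
        refine ⟨h1, fun a ha => ?_⟩
        rw [mem_erase]
        refine ⟨?_, h2 ha⟩
        rintro rfl
        exact hno (mem_inter.mp ha).1
    unfold ob at h0
    rw [hgg] at h0
    have hc : ((Z (k + 1) y).erase y).card + 1 = (Z (k + 1) y).card :=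
      Finset.card_erase_add_one hy
    zify at hc
    push_cast at h0
    have : (0 : ℤ) ≤ (k : ℤ) := by positivity
    nlinarith
  -- the candidates
  let S : ℕ → V → Finset V := fun k y => Q y \ Z (k + 1) y
  have hInn : ∀ k, Inn N (S k) T := by
    intro k
    refine ⟨?_, ?_, ?_⟩
    · intro y
      exact mem_sdiff.mpr ⟨ho.yq y, hdiag k y⟩
    · intro y y' x h hx
      exact hQT y y' h (mem_sdiff.mp hx).1
    · intro y' c hc hcy
      obtain ⟨y, hy, hcQ⟩ := (mem_filter.mp hc).2
      -- `c ∈ Q y`, `y' ∈ N y`, `c ∈ N y'`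
      have h1 : y' ∈ H y := ho.qh y y' c hcQ hcy
      have h2 : y' = y := ho.hy y y' h1 hy
      subst h2
      have h3 : c ∈ H y' := ho.qh y' c c hcQ (hself c)
      exact ho.hy y' c h3 hcy
  -- cost estimate
  have hcost : ∀ k, costIn N (S k) T ≤ ∑ y, (((P y).card : ℤ) + (X y).card
      - (Z' (k + 1) y).card - (Q y).card + (Z (k + 1) y).card) := by
    intro k
    unfold costIn
    apply Finset.sum_le_sum
    intro y _
    -- |rr S y| + |Z'| ≤ |T y|
    have d1 : (rr N (S k) y).card + (Z' (k + 1) y).card ≤ (T y).card := by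
      rw [← Finset.card_union_of_disjoint]
      · apply Finset.card_le_card
        apply Finset.union_subset
        · intro x hx
          obtain ⟨y1, hy1, hx1⟩ := (mem_filter.mp hx).2
          exact hQT y1 y hy1 (mem_sdiff.mp hx1).1
        · exact (hZ' (k + 1) y).1.1
      · rw [Finset.disjoint_left]
        intro x hx hx2
        obtain ⟨y1, hy1, hx1⟩ := (mem_filter.mp hx).2
        have := hmono (k + 1) y1 y hy1 (mem_inter.mpr ⟨hx2, (mem_sdiff.mp hx1).1⟩)
        exact (mem_sdiff.mp hx1).2 this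
    have d2 : (dn N (T y)).card ≤ (P y).card + (X y).card := by
      refine le_trans (Finset.card_le_card ?_) (Finset.card_union_le _ _)
      intro x hx
      by_cases hp : x ∈ P y
      · exact mem_union_left _ hp
      · exact mem_union_right _ (mem_sdiff.mpr ⟨hx, hp⟩)
    have d3 : (S k y).card + (Z (k + 1) y).card = (Q y).card :=
      Finset.card_sdiff_add_card_eq_card (hZ (k + 1) y).1.1
    zify at d1 d2 d3
    linarith
  -- averaging
  by_contra hcon
  push Not at hcon
  have hk : ∀ k, costOut N B H Q + 1 ≤ ∑ y, (((P y).card : ℤ) + (X y).card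
      - (Z' (k + 1) y).card - (Q y).card + (Z (k + 1) y).card) := by
    intro k
    have := hcon (S k) T (hInn k)
    have h2 := hcost k
    linarith
  have hsum : (M : ℤ) * (costOut N B H Q + 1) ≤
      ∑ k ∈ range M, ∑ y, (((P y).card : ℤ) + (X y).card
      - (Z' (k + 1) y).card - (Q y).card + (Z (k + 1) y).card) := by
    have := Finset.sum_le_sum (s := range M) (fun k _ => hk k)
    simpa using this
  rw [Finset.sum_comm] at hsum
  have hper : ∀ y, ∑ k ∈ range M, (((P y).card : ℤ) + (X y).card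
      - (Z' (k + 1) y).card - (Q y).card + (Z (k + 1) y).card)
      ≤ (M : ℤ) * (((rr N B y).card : ℤ) - (B y).card + (H y).card - (Q y).card) + n := by
    intro y
    have u := sum_upper N M (G y) (Q y) (fun k => Z k y) (fun k => (hZ k y).1)
    have l := sum_lower N M (X y) (T y) (fun k => Z' k y) (fun k => (hZ' k y).1)
      (hXn y) (hlast' y)
    have gc : (G y).card + (B y).card = (H y).card :=
      Finset.card_sdiff_add_card_eq_card (ho.bh y)
    have e : ∑ k ∈ range M, (((P y).card : ℤ) + (X y).card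
      - (Z' (k + 1) y).card - (Q y).card + (Z (k + 1) y).card)
      = (M : ℤ) * ((P y).card + (X y).card - (Q y).card)
        - ∑ k ∈ range M, ((Z' (k + 1) y).card : ℤ)
        + ∑ k ∈ range M, ((Z (k + 1) y).card : ℤ) := by
      simp only [Finset.sum_add_distrib, Finset.sum_sub_distrib, Finset.sum_const,
        Finset.card_range, nsmul_eq_mul]
      ring
    rw [e]
    have gc' : ((G y).card : ℤ) = (H y).card - (B y).card := by
      have : ((G y).card : ℤ) + (B y).card = (H y).card := by exact_mod_cast gc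
      linarith
    have u' : ∑ k ∈ range M, ((Z (k + 1) y).card : ℤ) ≤ (M : ℤ) * ((H y).card - (B y).card) := by
      rw [← gc']; exact u
    have l' : (M : ℤ) * (X y).card - n ≤ ∑ k ∈ range M, ((Z' (k + 1) y).card : ℤ) := l
    have hP : ((rr N B y).card : ℤ) = (P y).card := rfl
    rw [hP]
    linarith
  have htot : ∑ y, ∑ k ∈ range M, (((P y).card : ℤ) + (X y).card
      - (Z' (k + 1) y).card - (Q y).card + (Z (k + 1) y).card)
      ≤ (M : ℤ) * costOut N B H Q + n * n := by
    refine le_trans (Finset.sum_le_sum (fun y _ => hper y)) ?_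
    rw [Finset.sum_add_distrib, ← Finset.mul_sum]
    simp [costOut, hn]
  have hMM : (M : ℤ) = n * n + 1 := by rw [hM]; push_cast; ring
  have : (M : ℤ) * (costOut N B H Q + 1) ≤ (M : ℤ) * costOut N B H Q + n * n :=
    le_trans hsum htot
  nlinarith

end Vale.Agent.P038.H233
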